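import Vale.Agent.Lib.P209.AsympMain

open Complex ComplexConjugate Filter Topology

namespace Vale.Agent.Lib.P209.H49

open Vale.Agent.Lib.P209

/-- C1. `n! * C(c+n, n) = descFactorial (c+n) n ≤ (c+n)^n`. -/
theorem factorial_mul_card_sym_le (n c : ℕ) :
    n.factorial * Fintype.card (Sym (Fin (n + 1)) c) ≤ (c + n) ^ n := by
  rw [Sym.card_sym_eq_multichoose, Fintype.card_fin, Nat.multichoose_eq]
  have h1 : (n + 1 + c - 1).choose c = (n + c).choose n := by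
    have : n + 1 + c - 1 = n + c := by omega
    rw [this, Nat.choose_symm_add]
  rw [h1, ← Nat.descFactorial_eq_factorial_mul_choose, Nat.add_comm c n]
  exact Nat.descFactorial_le_pow (n + c) n

/-- The increment `(x+c)^n - x^n` is monotone in `x ≥ 0` (for `c ≥ 0`). -/
theorem shift_pow_sub_mono (n : ℕ) (c : ℝ) (hc : 0 ≤ c) :
    ∀ x N : ℝ, 0 ≤ x → x ≤ N → (x + c) ^ n - x ^ n ≤ (N + c) ^ n - N ^ n := by
  induction n with
  | zero =>
    intro x N _ _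
    simp
  | succ n ih =>
    intro x N hx hxN
    have hN : 0 ≤ N := hx.trans hxN
    have h1 : (x + c) ^ n - x ^ n ≤ (N + c) ^ n - N ^ n := ih x N hx hxN
    have h2 : 0 ≤ (N + c) ^ n - N ^ n := by
      have : N ^ n ≤ (N + c) ^ n := pow_le_pow_left₀ hN (by linarith) n
      linarith
    have h3 : (x + c) ^ n ≤ (N + c) ^ n := pow_le_pow_left₀ (by linarith) (by linarith) n
    have e1 : (x + c) ^ (n + 1) - x ^ (n + 1) = x * ((x + c) ^ n - x ^ n) + c * (x + c) ^ n := by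
      ring
    have e2 : (N + c) ^ (n + 1) - N ^ (n + 1) = N * ((N + c) ^ n - N ^ n) + c * (N + c) ^ n := by
      ring
    rw [e1, e2]
    have h4 : x * ((x + c) ^ n - x ^ n) ≤ N * ((N + c) ^ n - N ^ n) :=
      calc x * ((x + c) ^ n - x ^ n) ≤ x * ((N + c) ^ n - N ^ n) :=
            mul_le_mul_of_nonneg_left h1 hx
        _ ≤ N * ((N + c) ^ n - N ^ n) := mul_le_mul_of_nonneg_right hxN h2
    have h5 : c * (x + c) ^ n ≤ c * (N + c) ^ n := mul_le_mul_of_nonneg_left h3 hc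
    linarith

/-- C2. `x ↦ (x+c)^n - x^n` is monotone on `x ≥ 0`. -/
theorem shift_pow_le (n : ℕ) (x c N : ℝ) (hx : 0 ≤ x) (hxN : x ≤ N) (hc : 0 ≤ c) :
    (x + c) ^ n ≤ x ^ n + ((N + c) ^ n - N ^ n) := by
  have := shift_pow_sub_mono n c hc x N hx hxN
  linarith

/-- C3. -/
theorem count_bound_big (m M K : ℕ) (hM : 1 ≤ M) (ε : ℝ)
    (hP : (M : ℝ) * ((m + 1).factorial : ℝ) +
        ((((K + (m + 1) : ℕ) : ℝ) * (1 + 1 / (M : ℝ))) ^ (m + 1)) * (1 - ε) +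
        ((m : ℝ) + 2) * ((((K + (m + 1) : ℕ) : ℝ) + ((m : ℝ) + 2)) ^ (m + 1) -
          ((K + (m + 1) : ℕ) : ℝ) ^ (m + 1)) ≤
      ((K : ℝ) + 1) ^ (m + 1))
    (k : ℕ) (r : Fin k → ℝ) (R : ℝ) (hR : 0 < R)
    (k₀ : ℕ) (hk₀ : k₀ ≤ m + 2) (ρ : Fin k₀ → ℝ) (hρ0 : ∀ i, 0 ≤ ρ i) (hρR : ∀ i, ρ i ≤ R)
    (c : Fin k₀ → ℕ) (hc : ∀ i, (c i : ℝ) ≤ ((K + (m + 1) : ℕ) : ℝ) * ρ i / R + 1)
    (hV : ∑ i, ρ i ^ (m + 1) + ∑ i, r i ^ (m + 1) ≤ (1 - ε) * R ^ (m + 1))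
    (L t : Fin k → ℕ) (tt : Fin k → Fin M) (htt : ∀ i, M + (tt i).val = t i)
    (hge : ∀ i, R / (((K + (m + 1) : ℕ) : ℝ) * ((t i : ℝ) + 1) * 2 ^ L i) ≤ r i)
    (D : ℕ) (hLD : ∀ i, L i ≤ D) :
    ∑ τ : Fin M, ((∑ i ∈ Finset.univ.filter (fun i => tt i = τ), (2 ^ (m + 1)) ^ (D - L i)) /
        (((M + τ.val) ^ (m + 1) * (m + 1).factorial) * (2 ^ (m + 1)) ^ D) + 1) +
      ∑ i, Fintype.card (Sym (Fin (m + 1 + 1)) (c i)) ≤
      Fintype.card (Sym (Fin (m + 1 + 1)) K) := by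
  classical
  have hN1 : 1 ≤ K + (m + 1) := by omega
  have hM0 : (0 : ℝ) < (M : ℝ) := by exact_mod_cast hM
  have hN0 : (0 : ℝ) < ((K + (m + 1) : ℕ) : ℝ) := by exact_mod_cast hN1
  have hfac : (0 : ℝ) < ((m + 1).factorial : ℝ) := by exact_mod_cast Nat.factorial_pos (m + 1)
  have hP0 : (0 : ℝ) < (2 : ℝ) ^ (m + 1) := by positivity
  set Nr : ℝ := ((K + (m + 1) : ℕ) : ℝ) with hNr
  set A : ℝ := (Nr * (1 + 1 / (M : ℝ)) / R) ^ (m + 1) with hA
  have hA0 : 0 ≤ A := by rw [hA]; positivity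
  have htM : ∀ i, M ≤ t i := fun i => by have := htt i; omega
  have hterm : ∀ i, (1 : ℝ) / (((2 : ℝ) ^ (m + 1)) ^ L i * (t i : ℝ) ^ (m + 1)) ≤
      A * r i ^ (m + 1) := fun i =>
    type_volume M (K + (m + 1)) hM hN1 (L i) (t i) (htM i) (r i) R hR (hge i) (m + 1)
  have hs : ∀ τ : Fin M,
      (((∑ i ∈ Finset.univ.filter (fun i => tt i = τ), (2 ^ (m + 1)) ^ (D - L i)) /
        (((M + τ.val) ^ (m + 1) * (m + 1).factorial) * (2 ^ (m + 1)) ^ D) + 1 : ℕ) : ℝ) ≤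
      (∑ i ∈ Finset.univ.filter (fun i => tt i = τ),
        (1 : ℝ) / (((2 : ℝ) ^ (m + 1)) ^ L i * (t i : ℝ) ^ (m + 1))) / (m + 1).factorial + 1 := by
    intro τ
    refine le_trans (cast_div_succ_le _ _) ?_
    have h2 : ((∑ i ∈ Finset.univ.filter (fun i => tt i = τ), (2 ^ (m + 1)) ^ (D - L i) : ℕ) : ℝ) /
        (((((M + τ.val) ^ (m + 1) * (m + 1).factorial) * (2 ^ (m + 1)) ^ D : ℕ)) : ℝ) =
        (∑ i ∈ Finset.univ.filter (fun i => tt i = τ),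
          (1 : ℝ) / (((2 : ℝ) ^ (m + 1)) ^ L i * (t i : ℝ) ^ (m + 1))) / (m + 1).factorial := by
      push_cast
      rw [Finset.sum_div, Finset.sum_div]
      refine Finset.sum_congr rfl fun i hi => ?_
      have hti : tt i = τ := (Finset.mem_filter.1 hi).2
      have et : ((M : ℝ) + (τ.val : ℝ)) = (t i : ℝ) := by
        rw [← hti]
        exact_mod_cast htt i
      have e : ((2 : ℝ) ^ (m + 1)) ^ (D - L i) =
          ((2 : ℝ) ^ (m + 1)) ^ D / ((2 : ℝ) ^ (m + 1)) ^ L i :=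
        pow_sub₀ _ hP0.ne' (hLD i)
      have ht0 : (0 : ℝ) < (t i : ℝ) := by
        have : (M : ℝ) ≤ t i := by exact_mod_cast htM i
        linarith
      rw [e, et]
      field_simp
    rw [h2]
  -- the part of the small balls, as in `count_bound`
  have hsmall : ((m + 1).factorial : ℝ) * ∑ τ : Fin M,
      (((∑ i ∈ Finset.univ.filter (fun i => tt i = τ), (2 ^ (m + 1)) ^ (D - L i)) /
        (((M + τ.val) ^ (m + 1) * (m + 1).factorial) * (2 ^ (m + 1)) ^ D) + 1 : ℕ) : ℝ) ≤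
      A * ∑ i, r i ^ (m + 1) + (M : ℝ) * (m + 1).factorial := by
    calc ((m + 1).factorial : ℝ) * ∑ τ : Fin M,
        (((∑ i ∈ Finset.univ.filter (fun i => tt i = τ), (2 ^ (m + 1)) ^ (D - L i)) /
          (((M + τ.val) ^ (m + 1) * (m + 1).factorial) * (2 ^ (m + 1)) ^ D) + 1 : ℕ) : ℝ)
        ≤ ((m + 1).factorial : ℝ) * ∑ τ : Fin M,
          ((∑ i ∈ Finset.univ.filter (fun i => tt i = τ),
            (1 : ℝ) / (((2 : ℝ) ^ (m + 1)) ^ L i * (t i : ℝ) ^ (m + 1))) /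
              (m + 1).factorial + 1) :=
          mul_le_mul_of_nonneg_left (Finset.sum_le_sum fun τ _ => hs τ) hfac.le
      _ = (∑ i, (1 : ℝ) / (((2 : ℝ) ^ (m + 1)) ^ L i * (t i : ℝ) ^ (m + 1))) +
            (M : ℝ) * (m + 1).factorial := by
          rw [Finset.sum_add_distrib, ← Finset.sum_div, Finset.sum_fiberwise]
          simp only [Finset.sum_const, Finset.card_univ, Fintype.card_fin, nsmul_eq_mul, mul_one]
          field_simp
      _ ≤ A * ∑ i, r i ^ (m + 1) + (M : ℝ) * (m + 1).factorial := by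
          rw [Finset.mul_sum]
          exact add_le_add_left (Finset.sum_le_sum fun i _ => hterm i) _
  -- the part of the big balls
  set E : ℝ := (Nr + ((m : ℝ) + 2)) ^ (m + 1) - Nr ^ (m + 1) with hE
  have hE0 : 0 ≤ E := by
    have : Nr ^ (m + 1) ≤ (Nr + ((m : ℝ) + 2)) ^ (m + 1) :=
      pow_le_pow_left₀ hN0.le (by have : (0 : ℝ) ≤ (m : ℝ) := Nat.cast_nonneg m; linarith) _
    rw [hE]
    linarith
  have hbig1 : ∀ i : Fin k₀,
      ((m + 1).factorial : ℝ) * (Fintype.card (Sym (Fin (m + 1 + 1)) (c i)) : ℝ) ≤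
        A * ρ i ^ (m + 1) + E := by
    intro i
    have hm0 : (0 : ℝ) ≤ (m : ℝ) := Nat.cast_nonneg m
    have h1 : ((m + 1).factorial : ℝ) * (Fintype.card (Sym (Fin (m + 1 + 1)) (c i)) : ℝ) ≤
        ((c i : ℝ) + ((m : ℝ) + 1)) ^ (m + 1) := by
      have := factorial_mul_card_sym_le (m + 1) (c i)
      exact_mod_cast this
    set x : ℝ := Nr * ρ i / R with hx
    have hx0 : 0 ≤ x := by
      rw [hx]
      exact div_nonneg (mul_nonneg hN0.le (hρ0 i)) hR.le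
    have hxN : x ≤ Nr := by
      rw [hx, div_le_iff₀ hR]
      exact mul_le_mul_of_nonneg_left (hρR i) hN0.le
    have h2 : ((c i : ℝ) + ((m : ℝ) + 1)) ^ (m + 1) ≤ (x + ((m : ℝ) + 2)) ^ (m + 1) := by
      refine pow_le_pow_left₀ (by positivity) ?_ _
      have := hc i
      linarith
    have h3 : (x + ((m : ℝ) + 2)) ^ (m + 1) ≤ x ^ (m + 1) + E :=
      shift_pow_le (m + 1) x ((m : ℝ) + 2) Nr hx0 hxN (by linarith)
    have h4 : x ^ (m + 1) ≤ A * ρ i ^ (m + 1) := by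
      have hle : Nr / R ≤ Nr * (1 + 1 / (M : ℝ)) / R := by
        refine div_le_div_of_nonneg_right ?_ hR.le
        have h1M : (0 : ℝ) ≤ 1 / (M : ℝ) := by positivity
        nlinarith
      have hpow : (Nr / R) ^ (m + 1) ≤ A := by
        rw [hA]
        exact pow_le_pow_left₀ (div_nonneg hN0.le hR.le) hle _
      have hxe : x ^ (m + 1) = (Nr / R) ^ (m + 1) * ρ i ^ (m + 1) := by
        rw [hx, ← mul_pow]
        congr 1
        ring
      rw [hxe]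
      exact mul_le_mul_of_nonneg_right hpow (pow_nonneg (hρ0 i) _)
    linarith
  have hbig : ((m + 1).factorial : ℝ) *
      ∑ i : Fin k₀, (Fintype.card (Sym (Fin (m + 1 + 1)) (c i)) : ℝ) ≤
      A * ∑ i, ρ i ^ (m + 1) + ((m : ℝ) + 2) * E := by
    calc ((m + 1).factorial : ℝ) *
        ∑ i : Fin k₀, (Fintype.card (Sym (Fin (m + 1 + 1)) (c i)) : ℝ)
        = ∑ i : Fin k₀, ((m + 1).factorial : ℝ) *
            (Fintype.card (Sym (Fin (m + 1 + 1)) (c i)) : ℝ) := Finset.mul_sum _ _ _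
      _ ≤ ∑ i : Fin k₀, (A * ρ i ^ (m + 1) + E) := Finset.sum_le_sum fun i _ => hbig1 i
      _ = A * ∑ i, ρ i ^ (m + 1) + (k₀ : ℝ) * E := by
          rw [Finset.sum_add_distrib, ← Finset.mul_sum]
          simp only [Finset.sum_const, Finset.card_univ, Fintype.card_fin, nsmul_eq_mul]
      _ ≤ A * ∑ i, ρ i ^ (m + 1) + ((m : ℝ) + 2) * E := by
          have hk : (k₀ : ℝ) ≤ (m : ℝ) + 2 := by exact_mod_cast hk₀
          have := mul_le_mul_of_nonneg_right hk hE0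
          linarith
  have hAR : A * ((1 - ε) * R ^ (m + 1)) = (Nr * (1 + 1 / (M : ℝ))) ^ (m + 1) * (1 - ε) := by
    rw [hA, div_pow]
    field_simp
  have hreal : ((m + 1).factorial : ℝ) * ((∑ τ : Fin M,
      (((∑ i ∈ Finset.univ.filter (fun i => tt i = τ), (2 ^ (m + 1)) ^ (D - L i)) /
        (((M + τ.val) ^ (m + 1) * (m + 1).factorial) * (2 ^ (m + 1)) ^ D) + 1 : ℕ) : ℝ)) +
      ∑ i : Fin k₀, (Fintype.card (Sym (Fin (m + 1 + 1)) (c i)) : ℝ)) ≤
      ((K : ℝ) + 1) ^ (m + 1) := by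
    have hV' := mul_le_mul_of_nonneg_left hV hA0
    rw [hAR, mul_add] at hV'
    rw [mul_add]
    linarith
  have hnat : (m + 1).factorial * (∑ τ : Fin M,
      ((∑ i ∈ Finset.univ.filter (fun i => tt i = τ), (2 ^ (m + 1)) ^ (D - L i)) /
        (((M + τ.val) ^ (m + 1) * (m + 1).factorial) * (2 ^ (m + 1)) ^ D) + 1) +
      ∑ i, Fintype.card (Sym (Fin (m + 1 + 1)) (c i))) ≤
      (K + 1) ^ (m + 1) := by
    exact_mod_cast hreal
  exact Nat.le_of_mul_le_mul_left (le_trans hnat (card_sym_ge (m + 1) K))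
    (Nat.factorial_pos _)

end Vale.Agent.Lib.P209.H49
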