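import Vale.Agent.Lib.P209.AsympMain
import Vale.Agent.Lib.P209.helper45.CountBig

namespace Vale.Agent.Lib.P209.H80

open Vale.Agent.Lib.P209

/-- S2. Count bound for the shell configuration. -/
theorem count_bound_shell (m M K : ℕ) (hM : 1 ≤ M) (ε : ℝ)
    (hP : (M : ℝ) * ((m + 1).factorial : ℝ) +
        ((((K + (m + 1) : ℕ) : ℝ) * (1 + 1 / (M : ℝ))) ^ (m + 1)) * (1 - ε) +
        3 * ((((K + (m + 1) : ℕ) : ℝ) + ((m : ℝ) + 1)) ^ (m + 1) -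
          ((K + (m + 1) : ℕ) : ℝ) ^ (m + 1)) ≤
      ((K : ℝ) + 1) ^ (m + 1))
    (k : ℕ) (r : Fin k → ℝ) (R : ℝ) (hR : 0 < R)
    (ρ₀ : ℝ) (hρ : R / 2 ≤ ρ₀) (hρR : ρ₀ ≤ R)
    (hV : ρ₀ ^ (m + 1) + ((2 : ℝ) ^ (m + 1) - 1) * (R - ρ₀) ^ (m + 1) + ∑ i, r i ^ (m + 1) ≤
      (1 - ε) * R ^ (m + 1))
    (c₀ c₁ X : ℕ)
    (hc₀ : (c₀ : ℝ) ≤ ((K + (m + 1) : ℕ) : ℝ) * ρ₀ / R)
    (hc₁ : (c₁ : ℝ) ≤ ((K + (m + 1) : ℕ) : ℝ) * (2 * (R - ρ₀)) / R)
    (hX : ((K + (m + 1) : ℕ) : ℝ) * (R - ρ₀) / R ≤ (m : ℝ) + 1 ∨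
      ∃ c₂ : ℕ, X = Fintype.card (Sym (Fin (m + 1 + 1)) c₂) ∧
        ((K + (m + 1) : ℕ) : ℝ) * (R - ρ₀) / R - ((m : ℝ) + 1) ≤ (c₂ : ℝ) + 1)
    (L t : Fin k → ℕ) (tt : Fin k → Fin M) (htt : ∀ i, M + (tt i).val = t i)
    (hge : ∀ i, R / (((K + (m + 1) : ℕ) : ℝ) * ((t i : ℝ) + 1) * 2 ^ L i) ≤ r i)
    (D : ℕ) (hLD : ∀ i, L i ≤ D) :
    ∑ τ : Fin M, ((∑ i ∈ Finset.univ.filter (fun i => tt i = τ), (2 ^ (m + 1)) ^ (D - L i)) /
        (((M + τ.val) ^ (m + 1) * (m + 1).factorial) * (2 ^ (m + 1)) ^ D) + 1) +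
      Fintype.card (Sym (Fin (m + 1 + 1)) c₀) + Fintype.card (Sym (Fin (m + 1 + 1)) c₁) ≤
      Fintype.card (Sym (Fin (m + 1 + 1)) K) + X := by
  classical
  have hN1 : 1 ≤ K + (m + 1) := by omega
  have hM0 : (0 : ℝ) < (M : ℝ) := by exact_mod_cast hM
  have hN0 : (0 : ℝ) < ((K + (m + 1) : ℕ) : ℝ) := by exact_mod_cast hN1
  have hfac : (0 : ℝ) < ((m + 1).factorial : ℝ) := by exact_mod_cast Nat.factorial_pos (m + 1)
  have hP0 : (0 : ℝ) < (2 : ℝ) ^ (m + 1) := by positivity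
  have hm0 : (0 : ℝ) ≤ (m : ℝ) := Nat.cast_nonneg m
  set Nr : ℝ := ((K + (m + 1) : ℕ) : ℝ) with hNr
  set A : ℝ := (Nr * (1 + 1 / (M : ℝ)) / R) ^ (m + 1) with hA
  have hA0 : 0 ≤ A := by rw [hA]; positivity
  have htM : ∀ i, M ≤ t i := fun i => by have := htt i; omega
  have hterm : ∀ i, (1 : ℝ) / (((2 : ℝ) ^ (m + 1)) ^ L i * (t i : ℝ) ^ (m + 1)) ≤
      A * r i ^ (m + 1) := fun i =>
    type_volume M (K + (m + 1)) hM hN1 (L i) (t i) (htM i) (r i) R hR (hge i) (m + 1)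
  have hs : ∀ τ : Fin M,
      (((∑ i ∈ Finset.univ.filter (fun i => tt i = τ), (2 ^ (m + 1)) ^ (D - L i)) /
        (((M + τ.val) ^ (m + 1) * (m + 1).factorial) * (2 ^ (m + 1)) ^ D) + 1 : ℕ) : ℝ) ≤
      (∑ i ∈ Finset.univ.filter (fun i => tt i = τ),
        (1 : ℝ) / (((2 : ℝ) ^ (m + 1)) ^ L i * (t i : ℝ) ^ (m + 1))) / (m + 1).factorial + 1 := by
    intro τ
    refine le_trans (cast_div_succ_le _ _) ?_
    have h2 : ((∑ i ∈ Finset.univ.filter (fun i => tt i = τ), (2 ^ (m + 1)) ^ (D - L i) : ℕ) : ℝ) /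
        (((((M + τ.val) ^ (m + 1) * (m + 1).factorial) * (2 ^ (m + 1)) ^ D : ℕ)) : ℝ) =
        (∑ i ∈ Finset.univ.filter (fun i => tt i = τ),
          (1 : ℝ) / (((2 : ℝ) ^ (m + 1)) ^ L i * (t i : ℝ) ^ (m + 1))) / (m + 1).factorial := by
      push_cast
      rw [Finset.sum_div, Finset.sum_div]
      refine Finset.sum_congr rfl fun i hi => ?_
      have hti : tt i = τ := (Finset.mem_filter.1 hi).2
      have et : ((M : ℝ) + (τ.val : ℝ)) = (t i : ℝ) := by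
        rw [← hti]
        exact_mod_cast htt i
      have e : ((2 : ℝ) ^ (m + 1)) ^ (D - L i) =
          ((2 : ℝ) ^ (m + 1)) ^ D / ((2 : ℝ) ^ (m + 1)) ^ L i :=
        pow_sub₀ _ hP0.ne' (hLD i)
      have ht0 : (0 : ℝ) < (t i : ℝ) := by
        have : (M : ℝ) ≤ t i := by exact_mod_cast htM i
        linarith
      rw [e, et]
      field_simp
    rw [h2]
  -- (1) the part of the small balls, as in `count_bound`
  have hsmall : ((m + 1).factorial : ℝ) * ∑ τ : Fin M,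
      (((∑ i ∈ Finset.univ.filter (fun i => tt i = τ), (2 ^ (m + 1)) ^ (D - L i)) /
        (((M + τ.val) ^ (m + 1) * (m + 1).factorial) * (2 ^ (m + 1)) ^ D) + 1 : ℕ) : ℝ) ≤
      A * ∑ i, r i ^ (m + 1) + (M : ℝ) * (m + 1).factorial := by
    calc ((m + 1).factorial : ℝ) * ∑ τ : Fin M,
        (((∑ i ∈ Finset.univ.filter (fun i => tt i = τ), (2 ^ (m + 1)) ^ (D - L i)) /
          (((M + τ.val) ^ (m + 1) * (m + 1).factorial) * (2 ^ (m + 1)) ^ D) + 1 : ℕ) : ℝ)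
        ≤ ((m + 1).factorial : ℝ) * ∑ τ : Fin M,
          ((∑ i ∈ Finset.univ.filter (fun i => tt i = τ),
            (1 : ℝ) / (((2 : ℝ) ^ (m + 1)) ^ L i * (t i : ℝ) ^ (m + 1))) /
              (m + 1).factorial + 1) :=
          mul_le_mul_of_nonneg_left (Finset.sum_le_sum fun τ _ => hs τ) hfac.le
      _ = (∑ i, (1 : ℝ) / (((2 : ℝ) ^ (m + 1)) ^ L i * (t i : ℝ) ^ (m + 1))) +
            (M : ℝ) * (m + 1).factorial := by
          rw [Finset.sum_add_distrib, ← Finset.sum_div, Finset.sum_fiberwise]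
          simp only [Finset.sum_const, Finset.card_univ, Fintype.card_fin, nsmul_eq_mul, mul_one]
          field_simp
      _ ≤ A * ∑ i, r i ^ (m + 1) + (M : ℝ) * (m + 1).factorial := by
          rw [Finset.mul_sum]
          exact add_le_add_left (Finset.sum_le_sum fun i _ => hterm i) _
  -- abbreviations used in the sketch
  set E : ℝ := (Nr + ((m : ℝ) + 1)) ^ (m + 1) - Nr ^ (m + 1) with hE
  set s : ℝ := R - ρ₀ with hsdef
  have hs0 : 0 ≤ s := by rw [hsdef]; linarith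
  have hsR : 2 * s ≤ R := by rw [hsdef]; linarith
  have hρ0 : 0 ≤ ρ₀ := by linarith
  set x0 : ℝ := Nr * ρ₀ / R with hx0
  set x1 : ℝ := Nr * (2 * s) / R with hx1
  set v : ℝ := Nr * s / R with hv
  have hx0_0 : 0 ≤ x0 := by
    rw [hx0]; exact div_nonneg (mul_nonneg hN0.le hρ0) hR.le
  have hx0_N : x0 ≤ Nr := by
    rw [hx0, div_le_iff₀ hR]
    exact mul_le_mul_of_nonneg_left hρR hN0.le
  have hx1_0 : 0 ≤ x1 := by
    rw [hx1]; exact div_nonneg (mul_nonneg hN0.le (by linarith)) hR.le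
  have hx1_N : x1 ≤ Nr := by
    rw [hx1, div_le_iff₀ hR]
    exact mul_le_mul_of_nonneg_left hsR hN0.le
  have hv_0 : 0 ≤ v := by
    rw [hv]; exact div_nonneg (mul_nonneg hN0.le hs0) hR.le
  have hv_N : v ≤ Nr := by
    rw [hv, div_le_iff₀ hR]
    exact mul_le_mul_of_nonneg_left (by linarith) hN0.le
  have hn0 : (0 : ℝ) ≤ (m : ℝ) + 1 := by linarith
  -- (2) the two large cubes
  have hc0bd : ((m + 1).factorial : ℝ) * (Fintype.card (Sym (Fin (m + 1 + 1)) c₀) : ℝ) ≤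
      x0 ^ (m + 1) + E := by
    have h1 : ((m + 1).factorial : ℝ) * (Fintype.card (Sym (Fin (m + 1 + 1)) c₀) : ℝ) ≤
        ((c₀ : ℝ) + ((m : ℝ) + 1)) ^ (m + 1) := by
      have := H49.factorial_mul_card_sym_le (m + 1) c₀
      exact_mod_cast this
    have h2 : ((c₀ : ℝ) + ((m : ℝ) + 1)) ^ (m + 1) ≤ (x0 + ((m : ℝ) + 1)) ^ (m + 1) :=
      pow_le_pow_left₀ (by positivity) (by linarith) _
    have h3 : (x0 + ((m : ℝ) + 1)) ^ (m + 1) ≤ x0 ^ (m + 1) + E :=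
      H49.shift_pow_le (m + 1) x0 ((m : ℝ) + 1) Nr hx0_0 hx0_N hn0
    linarith
  have hc1bd : ((m + 1).factorial : ℝ) * (Fintype.card (Sym (Fin (m + 1 + 1)) c₁) : ℝ) ≤
      x1 ^ (m + 1) + E := by
    have h1 : ((m + 1).factorial : ℝ) * (Fintype.card (Sym (Fin (m + 1 + 1)) c₁) : ℝ) ≤
        ((c₁ : ℝ) + ((m : ℝ) + 1)) ^ (m + 1) := by
      have := H49.factorial_mul_card_sym_le (m + 1) c₁
      exact_mod_cast this
    have h2 : ((c₁ : ℝ) + ((m : ℝ) + 1)) ^ (m + 1) ≤ (x1 + ((m : ℝ) + 1)) ^ (m + 1) :=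
      pow_le_pow_left₀ (by positivity) (by linarith) _
    have h3 : (x1 + ((m : ℝ) + 1)) ^ (m + 1) ≤ x1 ^ (m + 1) + E :=
      H49.shift_pow_le (m + 1) x1 ((m : ℝ) + 1) Nr hx1_0 hx1_N hn0
    linarith
  -- (3) the overlap
  have hXnn : (0 : ℝ) ≤ ((m + 1).factorial : ℝ) * (X : ℝ) :=
    mul_nonneg hfac.le (Nat.cast_nonneg X)
  have hsmallv : v ≤ (m : ℝ) + 1 → v ^ (m + 1) - E ≤ ((m + 1).factorial : ℝ) * (X : ℝ) := by
    intro hvn
    have h1 : v ^ (m + 1) ≤ ((m : ℝ) + 1) ^ (m + 1) := pow_le_pow_left₀ hv_0 hvn _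
    have h2 := H49.shift_pow_sub_mono (m + 1) ((m : ℝ) + 1) hn0 0 Nr le_rfl hN0.le
    rw [zero_add, zero_pow (Nat.succ_ne_zero m), sub_zero] at h2
    linarith
  have hover : v ^ (m + 1) - E ≤ ((m + 1).factorial : ℝ) * (X : ℝ) := by
    rcases hX with hX | ⟨c₂, hXc, hc2⟩
    · exact hsmallv hX
    · by_cases hvn : v ≤ (m : ℝ) + 1
      · exact hsmallv hvn
      · have hvn' : (m : ℝ) + 1 ≤ v := le_of_not_ge hvn
        have h1 : ((c₂ : ℝ) + 1) ^ (m + 1) ≤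
            ((m + 1).factorial : ℝ) * (Fintype.card (Sym (Fin (m + 1 + 1)) c₂) : ℝ) := by
          have := card_sym_ge (m + 1) c₂
          exact_mod_cast this
        have h2 : (v - ((m : ℝ) + 1)) ^ (m + 1) ≤ ((c₂ : ℝ) + 1) ^ (m + 1) :=
          pow_le_pow_left₀ (by linarith) hc2 _
        have h3 := H49.shift_pow_sub_mono (m + 1) ((m : ℝ) + 1) hn0 (v - ((m : ℝ) + 1)) Nr
          (by linarith) (by linarith)
        rw [sub_add_cancel] at h3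
        rw [hXc]
        linarith
  -- (4) the volume identity
  have hpow : (Nr / R) ^ (m + 1) ≤ A := by
    rw [hA]
    refine pow_le_pow_left₀ (div_nonneg hN0.le hR.le) ?_ _
    refine div_le_div_of_nonneg_right ?_ hR.le
    have h1M : (0 : ℝ) ≤ 1 / (M : ℝ) := by positivity
    nlinarith
  have hbr0 : 0 ≤ ρ₀ ^ (m + 1) + ((2 : ℝ) ^ (m + 1) - 1) * s ^ (m + 1) := by
    have h1 : (1 : ℝ) ≤ (2 : ℝ) ^ (m + 1) := one_le_pow₀ (by norm_num)
    have h2 : 0 ≤ ρ₀ ^ (m + 1) := pow_nonneg hρ0 _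
    have h3 : 0 ≤ s ^ (m + 1) := pow_nonneg hs0 _
    have h4 : 0 ≤ ((2 : ℝ) ^ (m + 1) - 1) * s ^ (m + 1) := mul_nonneg (by linarith) h3
    linarith
  have hident : x0 ^ (m + 1) + x1 ^ (m + 1) - v ^ (m + 1) =
      (Nr / R) ^ (m + 1) * (ρ₀ ^ (m + 1) + ((2 : ℝ) ^ (m + 1) - 1) * s ^ (m + 1)) := by
    have e0 : x0 = Nr / R * ρ₀ := by rw [hx0]; ring
    have e1 : x1 = Nr / R * (2 * s) := by rw [hx1]; ring
    have e2 : v = Nr / R * s := by rw [hv]; ring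
    rw [e0, e1, e2, mul_pow, mul_pow, mul_pow, mul_pow]
    ring
  have hvol : x0 ^ (m + 1) + x1 ^ (m + 1) - v ^ (m + 1) ≤
      A * (ρ₀ ^ (m + 1) + ((2 : ℝ) ^ (m + 1) - 1) * s ^ (m + 1)) := by
    rw [hident]
    exact mul_le_mul_of_nonneg_right hpow hbr0
  have hAR : A * ((1 - ε) * R ^ (m + 1)) = (Nr * (1 + 1 / (M : ℝ))) ^ (m + 1) * (1 - ε) := by
    rw [hA, div_pow]
    field_simp
  -- (5) assembly
  have hKge : ((K : ℝ) + 1) ^ (m + 1) ≤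
      ((m + 1).factorial : ℝ) * (Fintype.card (Sym (Fin (m + 1 + 1)) K) : ℝ) := by
    have := card_sym_ge (m + 1) K
    exact_mod_cast this
  have hreal : ((m + 1).factorial : ℝ) * ((∑ τ : Fin M,
      (((∑ i ∈ Finset.univ.filter (fun i => tt i = τ), (2 ^ (m + 1)) ^ (D - L i)) /
        (((M + τ.val) ^ (m + 1) * (m + 1).factorial) * (2 ^ (m + 1)) ^ D) + 1 : ℕ) : ℝ)) +
      (Fintype.card (Sym (Fin (m + 1 + 1)) c₀) : ℝ) +
      (Fintype.card (Sym (Fin (m + 1 + 1)) c₁) : ℝ)) ≤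
      ((m + 1).factorial : ℝ) * ((Fintype.card (Sym (Fin (m + 1 + 1)) K) : ℝ) + (X : ℝ)) := by
    have hV' := mul_le_mul_of_nonneg_left hV hA0
    rw [hAR, mul_add, mul_add] at hV'
    rw [mul_add, mul_add, mul_add]
    rw [mul_add] at hvol
    linarith
  have hnat : (m + 1).factorial * (∑ τ : Fin M,
      ((∑ i ∈ Finset.univ.filter (fun i => tt i = τ), (2 ^ (m + 1)) ^ (D - L i)) /
        (((M + τ.val) ^ (m + 1) * (m + 1).factorial) * (2 ^ (m + 1)) ^ D) + 1) +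
      Fintype.card (Sym (Fin (m + 1 + 1)) c₀) + Fintype.card (Sym (Fin (m + 1 + 1)) c₁)) ≤
      (m + 1).factorial * (Fintype.card (Sym (Fin (m + 1 + 1)) K) + X) := by
    exact_mod_cast hreal
  exact Nat.le_of_mul_le_mul_left hnat (Nat.factorial_pos _)

end Vale.Agent.Lib.P209.H80
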